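import Vale.Agent.P181.FT.Spec
import Vale.Agent.P181.TS.H352.Mat

/-!
# P181, FT [DUAL]: the orbit inequality for long columns, from designs for the complements
-/

set_option autoImplicit false

namespace Vale.Agent.P181.FT.H352

open Finset
open Vale.Agent.P181 Vale.Agent.P181.H280 Vale.Agent.P181.FR Vale.Agent.P181.H188W
open Vale.Agent.P181.T4 Vale.Agent.P181.H463 Vale.Agent.P181.H59 Vale.Agent.P181.H261
open Vale.Agent.P181.H261.Mat5 Vale.Agent.P181.TS Vale.Agent.P181.TS.H352

/-- Transfer of orders through a relation `D M = ± D ^ l m` with `D 0 ≠ 0`. -/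
lemma transfer {D M m : Polynomial ℂ} {l : ℕ} {ε : ℤˣ} (hD : D.coeff 0 ≠ 0)
    (h : D * M = ((ε : ℤ) : Polynomial ℂ) * (D ^ l * m)) (k : ℕ) (hk : Polynomial.X ^ k ∣ m) :
    Polynomial.X ^ k ∣ M ∧ (m.coeff k ≠ 0 → M.coeff k ≠ 0) := by
  have h1 : Polynomial.X ^ k ∣ D * M := by
    rw [h]
    exact dvd_mul_of_dvd_right (dvd_mul_of_dvd_right hk _) _
  have h2 : ¬ (Polynomial.X : Polynomial ℂ) ∣ D := by
    rw [Polynomial.X_dvd_iff]
    exact hD
  have h3 : Polynomial.X ^ k ∣ M := Polynomial.prime_X.pow_dvd_of_dvd_mul_left k h2 h1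
  refine ⟨h3, fun h4 => ?_⟩
  obtain ⟨q, rfl⟩ := h3
  obtain ⟨q', rfl⟩ := hk
  have e2 : ∀ (n : ℕ) (p : Polynomial ℂ), (Polynomial.X ^ n * p).coeff n = p.coeff 0 := by
    intro n p
    have := Polynomial.coeff_X_pow_mul p n 0
    rwa [zero_add] at this
  rw [e2] at h4 ⊢
  have h5 : Polynomial.X ^ k * (D * q) =
      Polynomial.X ^ k * (((ε : ℤ) : Polynomial ℂ) * (D ^ l * q')) := by
    linear_combination h
  have h6 : D * q = ((ε : ℤ) : Polynomial ℂ) * (D ^ l * q') :=
    mul_left_cancel₀ (pow_ne_zero k Polynomial.X_ne_zero) h5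
  have h7 := congrArg (fun p => Polynomial.coeff p 0) h6
  simp only [Polynomial.mul_coeff_zero] at h7
  intro h8
  rw [h8, mul_zero] at h7
  have h9 : (D ^ l).coeff 0 ≠ 0 := by
    rw [Polynomial.coeff_zero_eq_eval_zero, Polynomial.eval_pow,
      ← Polynomial.coeff_zero_eq_eval_zero]
    exact pow_ne_zero _ hD
  have h10 : (((ε : ℤ) : Polynomial ℂ)).coeff 0 ≠ 0 := by
    rcases Int.units_eq_one_or ε with h11 | h11 <;> rw [h11] <;> simp
  exact mul_ne_zero h10 (mul_ne_zero h9 h4) h7.symm

/-- **[FT-DUAL]** -/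
theorem matDualStep : MatDualStep := by
  classical
  intro hJ h1 h2 h3 a b N len lam η hb hD hlen hη hcol hsum
  obtain ⟨r, g, cl, y, hr, hne, hlr, hst⟩ := hD
  obtain ⟨d, hd, hds⟩ := exists_balanced b (∑ i, η i) hb
  -- sizes
  have hlenC : ∀ c, (univ.filter fun i : Fin a => (i : ℕ) < len c).card = len c := by
    intro c
    rw [Fin.card_filter_val_lt, min_eq_right (hlen c).1]
  have hlenb : ∀ c, len c ≤ b := fun c => (hlen c).2
  have hsum2 : ∑ c, len c + ∑ i, η i = a * b := by
    rw [← hsum]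
    have h1 : ∑ i, lam i = ∑ i : Fin a, ((univ.filter fun c => (i : ℕ) < len c).card + η i) :=
      sum_congr rfl fun i _ => (hcol i).symm
    rw [h1, sum_add_distrib]
    congr 1
    calc ∑ c, len c = ∑ c, (univ.filter fun i : Fin a => (i : ℕ) < len c).card :=
          sum_congr rfl fun c _ => (hlenC c).symm
      _ = ∑ i : Fin a, (univ.filter fun c => (i : ℕ) < len c).card := by
          simp only [card_filter]
          exact sum_comm
  have hda : ∀ p, d p ≤ a := by
    intro p
    by_contra h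
    push Not at h
    have h1 : ∀ q, a ≤ d q := fun q => by have := hd p q; omega
    have h2 : ∑ q : Fin b, a < ∑ q, d q :=
      sum_lt_sum (fun q _ => h1 q) ⟨p, mem_univ p, h⟩
    rw [sum_const, card_univ, Fintype.card_fin, smul_eq_mul, hds, mul_comm] at h2
    omega
  have hsum3 : ∑ p, (a - d p) = ∑ c, len c := by
    have h2 : ∑ p, (a - d p) + ∑ p, d p = a * b := by
      rw [← sum_add_distrib]
      have h3 : ∀ p : Fin b, a - d p + d p = a := fun p => Nat.sub_add_cancel (hda p)
      rw [sum_congr rfl fun p _ => h3 p, sum_const, card_univ, Fintype.card_fin, smul_eq_mul,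
        mul_comm]
    omega
  have hadN : ∀ p, a - d p ≤ N := by
    intro p
    by_contra h
    push Not at h
    have h1 : ∀ q, N ≤ a - d q := fun q => by
      have := hd q p
      have := hda q
      have := hda p
      omega
    have h2 : ∑ q : Fin b, N < ∑ q, (a - d q) :=
      sum_lt_sum (fun q _ => h1 q) ⟨p, mem_univ p, h⟩
    have h3 : ∑ c, len c ≤ ∑ _c : Fin N, b := sum_le_sum fun c _ => hlenb c
    rw [sum_const, card_univ, Fintype.card_fin, smul_eq_mul] at h2 h3
    rw [hsum3, mul_comm] at h2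
    omega
  -- the degree functions of the complements
  have hgd1 : ∀ τ : Equiv.Perm (Fin b), ∀ p q,
      N - (a - d (τ.symm p)) ≤ N - (a - d (τ.symm q)) + 1 := by
    intro τ p q
    have h1 := hd (τ.symm p) (τ.symm q)
    have h2 := hda (τ.symm p)
    have h3 := hda (τ.symm q)
    omega
  have hgd2 : ∀ τ : Equiv.Perm (Fin b), ∑ p, (N - (a - d (τ.symm p))) =
      ∑ c, (b - len c) := by
    intro τ
    have h1 : ∑ p, (N - (a - d (τ.symm p))) = ∑ p, (N - (a - d p)) :=
      Equiv.sum_comp τ.symm fun p => N - (a - d p)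
    have h2 : ∑ p, (N - (a - d p)) + ∑ p, (a - d p) = N * b := by
      rw [← sum_add_distrib]
      have h3 : ∀ p : Fin b, N - (a - d p) + (a - d p) = N :=
        fun p => Nat.sub_add_cancel (hadN p)
      rw [sum_congr rfl fun p _ => h3 p, sum_const, card_univ, Fintype.card_fin, smul_eq_mul,
        mul_comm]
    have h4 : ∑ c, (b - len c) + ∑ c, len c = N * b := by
      rw [← sum_add_distrib]
      have h3 : ∀ c : Fin N, b - len c + len c = b := fun c => Nat.sub_add_cancel (hlenb c)
      rw [sum_congr rfl fun c _ => h3 c, sum_const, card_univ, Fintype.card_fin, smul_eq_mul]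
    rw [h1]
    omega
  have hlr : ∀ c, g * r ≤ b - len c := hlr
  have hex : ∀ τ : Equiv.Perm (Fin b), ∃ A : Fin N → Finset (Fin b),
      (∀ c, (A c).card = b - len c) ∧ (∀ p, dgr A p = N - (a - d (τ.symm p))) ∧
      (∀ c, Reg r cl y (A c)) ∧ ∀ ρ : Equiv.Perm (Fin b), ρ ≠ 1 →
        (∑ c, (miss cl (A c)).card < ∑ c, (miss cl ((A c).image ρ)).card) ∨
        ((∑ c, (miss cl (A c)).card ≤ ∑ c, (miss cl ((A c).image ρ)).card) ∧
          ∃ c, Sing r cl y ((A c).image ρ)) := fun τ =>
    hst (fun p => N - (a - d (τ.symm p))) (hgd1 τ) (hgd2 τ)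
  choose B hB1 hB2 hB3 hB4 using hex
  have hAcard : ∀ τ c, ((B τ c)ᶜ : Finset (Fin b)).card = len c := by
    intro τ c
    rw [card_compl, Fintype.card_fin, hB1]
    have := hlenb c
    omega
  let u : Equiv.Perm (Fin b) → (c : Fin N) → Fin (len c) → Fin b := fun τ c =>
    ((B τ c)ᶜ : Finset (Fin b)).orderEmbOfFin (hAcard τ c)
  have hu : ∀ τ c, Function.Injective (u τ c) := fun τ c =>
    (((B τ c)ᶜ : Finset (Fin b)).orderEmbOfFin (hAcard τ c)).injective
  have huA : ∀ τ c s, u τ c s ∉ B τ c := fun τ c s =>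
    mem_compl.1 (orderEmbOfFin_mem _ (hAcard τ c) s)
  have hur : ∀ τ c p, p ∉ B τ c → ∃ s, u τ c s = p := by
    intro τ c p hp
    have hr : p ∈ Set.range (((B τ c)ᶜ : Finset (Fin b)).orderEmbOfFin (hAcard τ c)) := by
      rw [range_orderEmbOfFin, mem_coe, mem_compl]
      exact hp
    exact hr
  let v : Equiv.Perm (Fin b) → (c : Fin N) → Fin (b - len c) → Fin b := fun τ c =>
    (B τ c).orderEmbOfFin (hB1 τ c)
  have hv : ∀ τ c, Function.Injective (v τ c) := fun τ c =>
    ((B τ c).orderEmbOfFin (hB1 τ c)).injective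
  have hvB : ∀ τ c s, v τ c s ∈ B τ c := fun τ c s => orderEmbOfFin_mem _ (hB1 τ c) s
  have him : ∀ τ c, univ.image (v τ c) = B τ c := fun τ c => by
    refine eq_of_subset_of_card_le (fun x hx => ?_) ?_
    · obtain ⟨s, _, rfl⟩ := mem_image.1 hx
      exact hvB τ c s
    · rw [card_image_of_injective _ (hv τ c), card_univ, Fintype.card_fin, hB1]
  -- all the letters
  have hmu : miss cl (univ.image (id : Fin b → Fin b)) = ∅ := by
    rw [image_id, eq_empty_iff_forall_notMem]
    intro i hi
    obtain ⟨x, hx⟩ := hne i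
    exact (mem_filter.1 hi).2 x (mem_univ x) hx
  have hRb : g * r ≤ b := by
    have h4 := Fintype.card_le_of_surjective cl hne
    rwa [Fintype.card_fin, Fintype.card_fin] at h4
  -- the generic rows
  obtain ⟨G, hG⟩ := h3 b r g cl y (Option (Equiv.Perm (Fin b) × Fin N))
    (fun x => x.elim b fun x => b - len x.2)
    (fun x => match x with
      | none => id
      | some x => v x.1 x.2) hr
    (fun x => by
      rcases x with _ | x
      · exact hRb
      · exact hlr x.2)
    (fun x => by
      rcases x with _ | x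
      · exact Function.injective_id
      · exact hv x.1 x.2)
    (fun x => by
      rcases x with _ | x
      · intro β
        left
        intro i _
        have h4 : i ∉ miss cl (univ.image (id : Fin b → Fin b)) := by
          rw [hmu]
          exact notMem_empty i
        exact h4
      · have h4 : Reg r cl y (univ.image (v x.1 x.2)) := by
          rw [him]
          exact hB3 x.1 x.2
        exact h4)
  let P : Matrix (Fin b) (Fin b) (Polynomial ℂ) := Matrix.of fun x i => pt r cl y G b x i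
  have hP0 : P.det.coeff 0 ≠ 0 := by
    have h4 := hG none
    change (mn r cl y G b id).coeff (miss cl (univ.image (id : Fin b → Fin b))).card ≠ 0 at h4
    rw [hmu, card_empty] at h4
    exact h4
  -- the point
  let qq : Fin b → Fin a → Polynomial ℂ := fun x s =>
    if h : (s : ℕ) < b then P.adjugate (Fin.rev ⟨s, h⟩) x else 0
  let K : Equiv.Perm (Fin b) → (c : Fin N) → Fin (len c) → Fin b := fun τ c s => τ.symm (u τ c s)
  let Mi : (c : Fin N) → (Fin (len c) → Fin b) → Polynomial ℂ := fun c U =>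
    Matrix.det (Matrix.of fun x s : Fin (len c) => qq (U x) (Fin.castLE (hlen c).1 s))
  have hqq : ∀ (c : Fin N) (x : Fin b) (s : Fin (len c)), qq x (Fin.castLE (hlen c).1 s) =
      P.adjugate (Fin.rev (Fin.castLE (hlenb c) s)) x := by
    intro c x s
    have h4 : ((Fin.castLE (hlen c).1 s : Fin a) : ℕ) < b := lt_of_lt_of_le s.2 (hlenb c)
    change (if h : ((Fin.castLE (hlen c).1 s : Fin a) : ℕ) < b then
      P.adjugate (Fin.rev ⟨_, h⟩) x else 0) = _
    rw [dif_pos h4]
    rfl
  -- complementary minors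
  have hkey : ∀ (c : Fin N) (e : Fin (b - len c) → Fin b) (U : Fin (len c) → Fin b),
      Function.Injective e → Function.Injective U → (∀ i j, e i ≠ U j) → ∀ k,
      Polynomial.X ^ k ∣ mn r cl y G (b - len c) e → Polynomial.X ^ k ∣ Mi c U ∧
        ((mn r cl y G (b - len c) e).coeff k ≠ 0 → (Mi c U).coeff k ≠ 0) := by
    intro c e U he hU heU k hk
    obtain ⟨ε, hε⟩ := hJ b (len c) (hlenb c) P e U he hU heU
    refine transfer hP0 (l := len c) (ε := ε) ?_ k hk
    have e1 : Mi c U = Matrix.det (Matrix.of fun x s : Fin (len c) =>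
        P.adjugate (Fin.rev (Fin.castLE (hlenb c) s)) (U x)) := by
      change Matrix.det (Matrix.of fun x s : Fin (len c) =>
        qq (U x) (Fin.castLE (hlen c).1 s)) = _
      congr 1
      ext1 x s
      exact hqq c (U x) s
    rw [e1, hε]
    rfl
  -- facts on the columns
  have hKK : ∀ (τ : Equiv.Perm (Fin b)) (c : Fin N), (fun s => τ (K τ c s)) = u τ c :=
    fun τ c => by
      funext s
      exact Equiv.apply_symm_apply τ (u τ c s)
  have hKinj : ∀ (τ σ : Equiv.Perm (Fin b)) (c : Fin N),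
      Function.Injective (fun s => σ (K τ c s)) := fun τ σ c s s' h =>
    hu τ c (τ.symm.injective (σ.injective h))
  have hvinj : ∀ (τ σ : Equiv.Perm (Fin b)) (c : Fin N),
      Function.Injective (fun s => (σ * τ⁻¹ : Equiv.Perm (Fin b)) (v τ c s)) :=
    fun τ σ c s s' h => hv τ c ((σ * τ⁻¹ : Equiv.Perm (Fin b)).injective h)
  have hvim : ∀ (τ σ : Equiv.Perm (Fin b)) (c : Fin N),
      univ.image (fun s => (σ * τ⁻¹ : Equiv.Perm (Fin b)) (v τ c s)) =
        (B τ c).image (σ * τ⁻¹ : Equiv.Perm (Fin b)) := fun τ σ c => by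
    rw [← him τ c, image_image]
    rfl
  have hdis : ∀ (τ σ : Equiv.Perm (Fin b)) (c : Fin N) i j,
      (σ * τ⁻¹ : Equiv.Perm (Fin b)) (v τ c i) ≠ σ (K τ c j) := fun τ σ c i j h => by
    have h4 : (σ * τ⁻¹ : Equiv.Perm (Fin b)) (v τ c i) =
        (σ * τ⁻¹ : Equiv.Perm (Fin b)) (u τ c j) := h
    have h5 := (σ * τ⁻¹ : Equiv.Perm (Fin b)).injective h4
    exact huA τ c j (h5 ▸ hvB τ c i)
  have hdvd : ∀ (τ σ : Equiv.Perm (Fin b)) (c : Fin N),
      Polynomial.X ^ (miss cl ((B τ c).image (σ * τ⁻¹ : Equiv.Perm (Fin b)))).card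
        ∣ Mi c (fun s => σ (K τ c s)) := fun τ σ c => by
    refine (hkey c _ _ (hvinj τ σ c) (hKinj τ σ c) (hdis τ σ c) _ ?_).1
    rw [← hvim]
    exact h1 b (g * r) r (b - len c) cl y G _ (hlr c) (hvinj τ σ c)
  have hdd : ∀ (τ : Equiv.Perm (Fin b)) (c : Fin N),
      Polynomial.X ^ (miss cl (B τ c)).card ∣ Mi c (fun s => τ (K τ c s)) ∧
        (Mi c (fun s => τ (K τ c s))).coeff (miss cl (B τ c)).card ≠ 0 := fun τ c => by
    have h4 : Polynomial.X ^ (miss cl (B τ c)).card ∣ mn r cl y G (b - len c) (v τ c) := by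
      have h5 := h1 b (g * r) r (b - len c) cl y G _ (hlr c) (hv τ c)
      rwa [him τ c] at h5
    have h6 := hkey c (v τ c) (fun s => τ (K τ c s)) (hv τ c) (hKinj τ τ c) (fun i j h => by
      have h7 : v τ c i = u τ c j := by
        rw [h]
        exact congrFun (hKK τ c) j
      exact huA τ c j (h7 ▸ hvB τ c i)) _ h4
    refine ⟨h6.1, h6.2 ?_⟩
    have h8 := hG (some (τ, c))
    change (mn r cl y G (b - len c) (v τ c)).coeff
      (miss cl (univ.image (v τ c))).card ≠ 0 at h8
    rwa [him τ c] at h8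
  -- the matrix
  let Q : Matrix (Equiv.Perm (Fin b)) (Equiv.Perm (Fin b)) (Polynomial ℂ) :=
    Matrix.of fun τ σ => ∏ c, Mi c (fun s => σ (K τ c s))
  have hdet : Q.det ≠ 0 := by
    refine det_ne Q (fun τ => ∑ c, (miss cl (B τ c)).card) (fun τ => ?_) (fun τ => ?_)
      (fun τ σ hne => ?_)
    · change _ ∣ ∏ c, Mi c (fun s => τ (K τ c s))
      rw [← prod_pow_eq_pow_sum]
      exact prod_dvd_prod_of_dvd _ _ fun c _ => (hdd τ c).1
    · change (∏ c, Mi c (fun s => τ (K τ c s))).coeff _ ≠ 0
      rw [coeff_prod]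
      · exact prod_ne_zero_iff.2 fun c _ => (hdd τ c).2
      · intro c _
        exact (hdd τ c).1
    · change _ ∣ ∏ c, Mi c (fun s => σ (K τ c s))
      have hρ : (σ * τ⁻¹ : Equiv.Perm (Fin b)) ≠ 1 := fun h => hne (mul_inv_eq_one.1 h)
      rcases hB4 τ _ hρ with h4 | ⟨h4, c0, hc0⟩
      · refine dvd_trans (pow_dvd_pow _ h4) ?_
        rw [← prod_pow_eq_pow_sum]
        exact prod_dvd_prod_of_dvd _ _ fun c _ => hdvd τ σ c
      · refine dvd_trans (pow_dvd_pow _ (Nat.succ_le_succ h4)) ?_
        rw [← mul_prod_erase univ (fun c => Mi c (fun s => σ (K τ c s))) (mem_univ c0)]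
        have h5 : Polynomial.X ^ ((miss cl ((B τ c0).image (σ * τ⁻¹ :
            Equiv.Perm (Fin b)))).card + 1) ∣ Mi c0 (fun s => σ (K τ c0 s)) := by
          refine (hkey c0 _ _ (hvinj τ σ c0) (hKinj τ σ c0) (hdis τ σ c0) _ ?_).1
          rw [← hvim] at hc0 ⊢
          exact h2 b r g (b - len c0) cl y G _ hr (hlr c0) (hvinj τ σ c0) hc0
        have h6 : Polynomial.X ^ (∑ c ∈ univ.erase c0, (miss cl ((B τ c).image (σ * τ⁻¹ :
            Equiv.Perm (Fin b)))).card) ∣
              ∏ c ∈ univ.erase c0, Mi c (fun s => σ (K τ c s)) := by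
          rw [← prod_pow_eq_pow_sum]
          exact prod_dvd_prod_of_dvd _ _ fun c _ => hdvd τ σ c
        have h7 := mul_dvd_mul h5 h6
        rw [← pow_add] at h7
        refine dvd_trans (pow_dvd_pow _ ?_) h7
        rw [← add_sum_erase univ (fun c => (miss cl ((B τ c).image (σ * τ⁻¹ :
          Equiv.Perm (Fin b)))).card) (mem_univ c0)]
        omega
  obtain ⟨t, ht⟩ := exists_eval_ne hdet
  refine orbit_gtD hη len (fun c => (hlen c).1) hcol d hd hds K ?_
    (fun x i => Polynomial.eval t (qq x i)) ?_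
  · intro τ j
    have h1 : ∀ c, (univ.filter fun i => τ.symm (u τ c i) = j).card =
        if τ j ∈ B τ c then 0 else 1 := by
      intro c
      have hset : (univ.filter fun i => τ.symm (u τ c i) = j) =
          univ.filter fun i => u τ c i = τ j := by
        ext i
        simp only [mem_filter, mem_univ, true_and]
        rw [Equiv.symm_apply_eq]
      rw [hset]
      split_ifs with h
      · rw [card_eq_zero, filter_eq_empty_iff]
        intro i _ hi
        exact huA τ c i (hi ▸ h)
      · obtain ⟨i0, hi0⟩ := hur τ c (τ j) h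
        rw [card_eq_one]
        refine ⟨i0, ?_⟩
        ext i
        simp only [mem_filter, mem_univ, true_and, mem_singleton]
        constructor
        · intro hi
          exact hu τ c (hi.trans hi0.symm)
        · intro hi
          rw [hi]
          exact hi0
    have h2 := hB2 τ (τ j)
    rw [dgr, Equiv.symm_apply_apply] at h2
    have h3 : (∑ c, if τ j ∈ B τ c then 0 else 1) +
        (univ.filter fun c => τ j ∈ B τ c).card = N := by
      rw [card_filter, ← sum_add_distrib]
      have h4 : ∀ c : Fin N, (if τ j ∈ B τ c then 0 else 1) + (if τ j ∈ B τ c then 1 else 0) =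
          1 := fun c => by split_ifs <;> rfl
      rw [sum_congr rfl fun c _ => h4 c]
      simp
    rw [sum_congr rfl fun c _ => h1 c]
    have h5 := hadN j
    have h6 := hda j
    omega
  · have h4 : (Matrix.of fun τ σ : Equiv.Perm (Fin b) =>
        ∏ c, dt (hlen c).1 (fun s => σ (K τ c s)) (fun x i => Polynomial.eval t (qq x i))) =
        (Polynomial.evalRingHom t).mapMatrix Q := by
      ext τ σ
      rw [Matrix.of_apply, RingHom.mapMatrix_apply, Matrix.map_apply]
      change _ = (Polynomial.evalRingHom t) (∏ c, Mi c (fun s => σ (K τ c s)))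
      rw [map_prod]
      refine prod_congr rfl fun c _ => ?_
      change _ = (Polynomial.evalRingHom t) (Matrix.det (Matrix.of fun x s : Fin (len c) =>
        qq (σ (K τ c x)) (Fin.castLE (hlen c).1 s)))
      rw [RingHom.map_det, dt]
      congr 1
    rw [h4, ← RingHom.map_det]
    exact ht

end Vale.Agent.P181.FT.H352
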